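import Vale.Agent.P281.H364.UD.D8
import Vale.Agent.P281.H511.UD.Spec

/-!
# P281, project T-UD (helper364): the generic rank, in the letters of `H511.UD`
-/

open Set Filter Metric Vale.Agent.P281
open Vale.Agent.P281.H64 (Cm IsProperFibration)
open Vale.Agent.P281.H64.Gen (IsSmallSet)
open Vale.Agent.P281.H64.TD (Cub)
open Vale.Agent.P281.H713 (minor minor_congr minor_map minor_comp minor_joint minor_contDiffAt)
open Vale.Agent.P281.H364.TD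
open scoped Topology ContDiff Manifold

set_option linter.unusedSectionVars false

noncomputable section

namespace Vale.Agent.P281.H364.UD

section Lin

/-- `r` independent elements of the span of a set give `r` independent elements of the set. -/
theorem exists_indep {W : Type*} [AddCommGroup W] [Module ℂ W] [FiniteDimensional ℂ W]
    {T : Set W} {r : ℕ} {v : Fin r → W} (hv : LinearIndependent ℂ v)
    (hT : ∀ k, v k ∈ Submodule.span ℂ T) :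
    ∃ t : Fin r → W, (∀ k, t k ∈ T) ∧ LinearIndependent ℂ t := by
  obtain ⟨b, hbT, hbs, hbi⟩ := exists_linearIndependent ℂ T
  have h1 : r ≤ Module.finrank ℂ (Submodule.span ℂ b) := by
    rw [hbs]
    have h2 : LinearIndependent ℂ (fun k => (⟨v k, hT k⟩ : Submodule.span ℂ T)) :=
      LinearIndependent.of_comp (Submodule.span ℂ T).subtype hv
    simpa using h2.fintype_card_le_finrank
  have hfin : b.Finite := hbi.setFinite
  have : Fintype b := hfin.fintype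
  have h3 : Module.finrank ℂ (Submodule.span ℂ b) = Fintype.card b := by
    have h4 := finrank_span_eq_card hbi
    rwa [Subtype.range_coe] at h4
  rw [h3] at h1
  let e : Fin r ↪ b := (Fin.castLEEmb h1).trans (Fintype.equivFin b).symm.toEmbedding
  exact ⟨fun k => (e k : W), fun k => hbT (e k).2, hbi.comp e e.injective⟩

theorem surjective_iff {W : Type*} [NormedAddCommGroup W] [NormedSpace ℂ W]
    [FiniteDimensional ℂ W] {r : ℕ} {a : Fin r → (W →L[ℂ] ℂ)} :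
    (Function.Surjective fun (ξ : W) (k : Fin r) => a k ξ) ↔ LinearIndependent ℂ a := by
  classical
  refine ⟨fun h => ?_, fun h => JB.surjective_of_linearIndependent h⟩
  rw [Fintype.linearIndependent_iff]
  intro c hc k
  obtain ⟨ξ, hξ⟩ := h (Pi.single k 1)
  have h1 := congrArg (fun L : W →L[ℂ] ℂ => L ξ) hc
  simp only [sum_apply, smul_apply, smul_eq_mul, zero_apply] at h1
  have h2 : ∀ i, a i ξ = (Pi.single k 1 : Fin r → ℂ) i := fun i => congrFun hξ i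
  simp only [h2] at h1
  rw [Finset.sum_eq_single k (fun b _ hb => by rw [Pi.single_eq_of_ne hb, mul_zero])
    (fun hk => absurd (Finset.mem_univ k) hk), Pi.single_eq_same, mul_one] at h1
  exact h1

end Lin

section Rk
variable {d r : ℕ} {V : Type} [NormedAddCommGroup V] [InnerProductSpace ℂ V]
  [FiniteDimensional ℂ V]

open Vale.Agent.P281.H511.UD (RankUDAt)

theorem RkUD.rankUDAt {h : (Fin d → ℂ) → V} {W : (Fin d → ℂ) → Cub V} {v₀ : Fin d → ℂ}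
    (hh : ContDiffAt ℂ ω h v₀) (H : RkUD r h W v₀) : RankUDAt r h W v₀ := by
  obtain ⟨m₀, g, h0, hs⟩ := H
  set fs : (ℂ × Cub V) →L[ℂ] ℂ := ContinuousLinearMap.fst ℂ ℂ (Cub V) with hfs
  refine ⟨Fin.cons m₀ fun k => Sum.elim id (fun _ => m₀) (g k), Fin.cons fs fun k =>
    Sum.elim (fun _ => fs) (fun l => l.comp (ContinuousLinearMap.snd ℂ ℂ (Cub V))) (g k),
    ?_, fun η => ?_⟩
  · simpa [hfs] using h0
  · obtain ⟨ξ, hξ⟩ := hs η
    refine ⟨ξ, ?_⟩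
    rw [← hξ]
    funext k
    have h1 : ∀ᶠ v in 𝓝 v₀, minor m₀ h v ≠ 0 :=
      (minor_contDiffAt m₀ hh).continuousAt.eventually_ne h0
    have h3 : (fun u => (minor (Sum.elim id (fun _ => m₀) (g k)) h u *
        (Sum.elim (fun _ => fs) (fun l => l.comp (ContinuousLinearMap.snd ℂ ℂ (Cub V))) (g k))
          (1, W u)) / (minor m₀ h u * fs (1, W u))) =ᶠ[𝓝 v₀] gf m₀ (g k) h W := by
      filter_upwards [h1] with v hv
      unfold gf
      have h4 : fs (1, W v) = 1 := rfl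
      rcases g k with m | l
      · simp only [Sum.elim_inl, id_eq]
        rw [h4, mul_one, mul_one]
      · simp only [Sum.elim_inr]
        rw [h4, mul_one, mul_div_cancel_left₀ _ hv]
        rfl
    simp only [Fin.cons_zero, Fin.cons_succ]
    rw [h3.fderiv_eq]

theorem RkUD.of_rankUDAt {h : (Fin d → ℂ) → V} {W : (Fin d → ℂ) → Cub V} {v₀ : Fin d → ℂ}
    (hh : ContDiffAt ℂ ω h v₀) (hW : DifferentiableAt ℂ W v₀) (H : RankUDAt r h W v₀) :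
    RkUD r h W v₀ := by
  obtain ⟨m, Λ, h0, hs⟩ := H
  have hm0 := left_ne_zero_of_mul h0
  have hΛ0 := right_ne_zero_of_mul h0
  set T : Set ((Fin d → ℂ) →L[ℂ] ℂ) := range fun g => fderiv ℂ (gf (m 0) g h W) v₀ with hT
  have hrat : ∀ k, DifferentiableAt ℂ (fun u => minor (m k) h u / minor (m 0) h u) v₀ := fun k =>
    gf_differentiableAt (g := Sum.inl (m k)) hh hW hm0
  have hΛd : ∀ k, DifferentiableAt ℂ (fun u => Λ k (1, W u)) v₀ := fun k =>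
    (Λ k).differentiableAt.comp v₀ ((differentiableAt_const _).prodMk hW)
  have hΛf : ∀ k, fderiv ℂ (fun u => Λ k (1, W u)) v₀ ∈ Submodule.span ℂ T := by
    intro k
    have h1 : (fun u => Λ k (1, W u)) = fun u => Λ k (1, 0) +
        gf (m 0) (Sum.inr ((Λ k).comp (ContinuousLinearMap.inr ℂ ℂ (Cub V)))) h W u := by
      funext u
      have h2 : ((1 : ℂ), W u) = (1, 0) + (0, W u) := by simp
      rw [h2, map_add]
      rfl
    rw [h1, fderiv_const_add]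
    exact Submodule.subset_span ⟨_, rfl⟩
  have key : ∀ k : Fin r, fderiv ℂ (fun u => (minor (m k.succ) h u * Λ k.succ (1, W u)) /
      (minor (m 0) h u * Λ 0 (1, W u))) v₀ ∈ Submodule.span ℂ T := by
    intro k
    have h1 : (fun u => (minor (m k.succ) h u * Λ k.succ (1, W u)) /
        (minor (m 0) h u * Λ 0 (1, W u))) = fun u =>
        (minor (m k.succ) h u / minor (m 0) h u) * (Λ k.succ (1, W u) * (Λ 0 (1, W u))⁻¹) := by
      funext u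
      rw [mul_div_mul_comm, div_eq_mul_inv (Λ k.succ (1, W u))]
    have h2 : DifferentiableAt ℂ (fun u => (Λ 0 (1, W u))⁻¹) v₀ :=
      DifferentiableAt.fun_inv (hΛd 0) hΛ0
    have h3 : DifferentiableAt ℂ (fun u => Λ k.succ (1, W u) * (Λ 0 (1, W u))⁻¹) v₀ :=
      (hΛd k.succ).mul h2
    rw [h1, fderiv_fun_mul (hrat k.succ) h3, fderiv_fun_mul (hΛd k.succ) h2]
    have h4 : fderiv ℂ (fun u => (Λ 0 (1, W u))⁻¹) v₀ ∈ Submodule.span ℂ T := by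
      have h5 := ((hasDerivAt_inv hΛ0).comp_hasFDerivAt v₀ (hΛd 0).hasFDerivAt).fderiv
      have h6 : (fun u => (Λ 0 (1, W u))⁻¹) = (fun x : ℂ => x⁻¹) ∘ fun u => Λ 0 (1, W u) := rfl
      rw [h6]
      erw [h5]
      exact Submodule.smul_mem _ _ (hΛf 0)
    refine Submodule.add_mem _ (Submodule.smul_mem _ _ (Submodule.add_mem _
      (Submodule.smul_mem _ _ h4) (Submodule.smul_mem _ _ (hΛf _)))) (Submodule.smul_mem _ _ ?_)
    exact Submodule.subset_span ⟨Sum.inl (m k.succ), rfl⟩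
  obtain ⟨t, ht, hti⟩ := exists_indep (surjective_iff.1 hs) key
  choose g hg using ht
  refine ⟨m 0, g, hm0, surjective_iff.2 ?_⟩
  have h1 : (fun k => fderiv ℂ (gf (m 0) (g k) h W) v₀) = t := funext hg
  rw [h1]
  exact hti

end Rk

section Geo
variable {p d n : ℕ} {X Y : Type} [TopologicalSpace X] [ChartedSpace (Cm (p + d)) X]
  [TopologicalSpace Y] [ChartedSpace (Cm p) Y]
  {V : Type} [NormedAddCommGroup V] [InnerProductSpace ℂ V] [FiniteDimensional ℂ V]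
variable {f : X → Y} {S : Set Y} {ι : Type} {U : ι → Set Y} {𝒜 : Set (Set X)}
  {L : ι → X → (X → V) → (X → Cub V) → Prop} {r : ℕ}
variable {T : H64.TU.Tame (Fin d → ℂ) X} {Q : (Fin n → ℝ) → (Fin n → ℝ) → ℝ}
  {π : ι → Y → ((Fin n → ℝ) ≃L[ℝ] V)}

theorem uDat (h : H511.UD.IsUD (Cm (p + d)) (Cm p) d T f S Q U π 𝒜 L) :
    UDat (Cm (p + d)) f S U 𝒜 L where
  cover := h.cover
  isOpen := h.isOpen
  lift := h.lift
  bhol := h.liftHol
  pole := h.pole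
  near := h.near
  change a b x ha hb β w β' w' h1 h2 := by
    obtain ⟨G, c, -, hG⟩ := h.change a b x ha hb β w β' w' h1 h2
    exact ⟨G, c, hG⟩

theorem exists_minor {h : (Fin d → ℂ) → V} {v : Fin d → ℂ}
    (hinj : Function.Injective (fderiv ℂ h v)) : ∃ m, minor m h v ≠ 0 := by
  obtain ⟨P, hP⟩ := LinearMap.exists_leftInverse_of_injective
    (fderiv ℂ h v : (Fin d → ℂ) →ₗ[ℂ] V) (LinearMap.ker_eq_bot.2 hinj)
  refine ⟨fun a => (ContinuousLinearMap.proj a : (Fin d → ℂ) →L[ℂ] ℂ).comp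
    (LinearMap.toContinuousLinearMap P), ?_⟩
  have h1 : (Matrix.of fun a b : Fin d => ((ContinuousLinearMap.proj a :
      (Fin d → ℂ) →L[ℂ] ℂ).comp (LinearMap.toContinuousLinearMap P))
        (fderiv ℂ h v (Pi.single b 1))) = (1 : Matrix (Fin d) (Fin d) ℂ) := by
    ext a b
    have h2 : P (fderiv ℂ h v (Pi.single b 1)) = Pi.single b 1 :=
      LinearMap.congr_fun hP (Pi.single b 1)
    show P (fderiv ℂ h v (Pi.single b 1)) a = _
    rw [h2, Matrix.one_apply, Pi.single_apply]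
  unfold minor
  rw [h1, Matrix.det_one]
  exact one_ne_zero

variable [IsManifold 𝓘(ℂ, Cm (p + d)) ω X] [IsManifold 𝓘(ℂ, Cm p) ω Y]

/-- Slices with a minor different from `0` are open in the fibre. -/
theorem slice_open (hf : ContMDiff 𝓘(ℂ, Cm (p + d)) 𝓘(ℂ, Cm p) ω f) {x : X}
    (hs : Function.Surjective (mfderiv 𝓘(ℂ, Cm (p + d)) 𝓘(ℂ, Cm p) f x)) {β : X → V}
    (hβ : ContMDiffAt 𝓘(ℂ, Cm (p + d)) 𝓘(ℂ, V) ω β x) {q : Cm d → X} {v₀ : Cm d}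
    (hq : ContMDiffAt 𝓘(ℂ, Cm d) 𝓘(ℂ, Cm (p + d)) ω q v₀) (hqx : q v₀ = x)
    (hqf : ∀ᶠ v in 𝓝 v₀, f (q v) = f x) {m : Fin d → (V →L[ℂ] ℂ)}
    (hm : minor m (fun v => β (q v)) v₀ ≠ 0) {P : Cm d → Prop} (hP : ∀ᶠ v in 𝓝 v₀, P v) :
    ∀ᶠ z in 𝓝 x, f z = f x → ∃ v, P v ∧ q v = z := by
  obtain ⟨c, hxs, hc⟩ := H152.K.exists_prodChart (d := d) hf (chart_mem_atlas (Cm p) (f x))
    (mem_chart_source _ _) hs
  have hqc : Tendsto q (𝓝 v₀) (𝓝 x) := by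
    have := hq.continuousAt.tendsto
    rwa [hqx] at this
  have hcq : ContMDiffAt 𝓘(ℂ, Cm d) 𝓘(ℂ, Cm p × Cm d) ω (fun v => c (q v)) v₀ := by
    have k2 : ContMDiffAt 𝓘(ℂ, Cm (p + d)) 𝓘(ℂ, Cm p × Cm d) ω c (q v₀) := by
      rw [hqx]
      exact (hc.hol x hxs).contMDiffAt (c.open_source.mem_nhds hxs)
    exact ContMDiffAt.comp (g := c) (f := q) v₀ k2 hq
  set θ : Cm d → Cm d := fun v => (c (q v)).2 with hθd
  have hθ : ContDiffAt ℂ ω θ v₀ := contDiffAt_snd.comp v₀ (contMDiffAt_iff_contDiffAt.1 hcq)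
  have hθ0 : θ v₀ = (c x).2 := by rw [hθd]; simp only; rw [hqx]
  have hqe : ∀ᶠ v in 𝓝 v₀, q v = c.symm ((c x).1, θ v) := by
    filter_upwards [hqc.eventually (c.open_source.mem_nhds hxs), hqf] with v k4 k5
    have k6 : c (q v) = ((c x).1, (c (q v)).2) := by
      refine Prod.ext ?_ rfl
      rw [(hc.fst _ k4).2, (hc.fst _ hxs).2, k5]
    show q v = c.symm ((c x).1, (c (q v)).2)
    rw [← k6, c.left_inv k4]
  have hβs : ContDiffAt ℂ ω (fun v => β (c.symm ((c x).1, v))) (θ v₀) := by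
    rw [hθ0]
    have k2 : c.symm ((c x).1, (c x).2) = x := c.left_inv hxs
    have k3 := ContMDiffAt.comp (g := β) (f := fun v => c.symm ((c x).1, v)) (c x).2
      (by rw [k2]; exact hβ) (slice_hol hc hxs)
    exact contMDiffAt_iff_contDiffAt.1 k3
  have h1 : (fun v => β (q v)) =ᶠ[𝓝 v₀] fun v => β (c.symm ((c x).1, θ v)) := by
    filter_upwards [hqe] with v hv
    rw [← hv]
  rw [minor_congr m h1, minor_comp m (h := fun v => β (c.symm ((c x).1, v))) (φ := θ)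
    (hβs.differentiableAt (by simp)) (hθ.differentiableAt (by simp))] at hm
  have hdet : (fderiv ℂ θ v₀).det ≠ 0 := left_ne_zero_of_mul hm
  have hsurj : LinearMap.range (fderiv ℂ θ v₀ : Cm d →ₗ[ℂ] Cm d) = ⊤ := by
    have h2 : IsUnit (LinearMap.det (fderiv ℂ θ v₀ : Cm d →ₗ[ℂ] Cm d)) :=
      isUnit_iff_ne_zero.2 hdet
    exact (LinearMap.isUnit_iff_range_eq_top _).1 ((LinearMap.isUnit_iff_isUnit_det _).2 h2)
  have hmap : map θ (𝓝 v₀) = 𝓝 (θ v₀) :=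
    (hθ.hasStrictFDerivAt (by simp)).map_nhds_eq_of_surj hsurj
  have h3 : θ '' {v | P v ∧ q v = c.symm ((c x).1, θ v)} ∈ 𝓝 (c x).2 := by
    rw [← hθ0, ← hmap]
    exact image_mem_map (hP.and hqe)
  have hcc : Tendsto (fun z => (c z).2) (𝓝 x) (𝓝 (c x).2) :=
    (continuous_snd.tendsto _).comp (c.continuousAt hxs).tendsto
  filter_upwards [hcc.eventually h3, c.open_source.mem_nhds hxs] with z hz hzs hfz
  obtain ⟨v, ⟨hv1, hv2⟩, hv3⟩ := hz
  refine ⟨v, hv1, ?_⟩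
  rw [hv2, hv3]
  have h4 : ((c x).1, (c z).2) = c z := by
    refine Prod.ext ?_ rfl
    show (c x).1 = (c z).1
    rw [(hc.fst _ hxs).2, (hc.fst _ hzs).2, hfz]
  rw [h4, c.left_inv hzs]

/-- The constant `1` is a local equation off the divisor. -/
theorem isLocalEq_one {D : Set X} (hD : IsClosed D) {x : X} (hx : x ∉ D) :
    J.IsLocalEq (Cm (p + d)) D (fun _ => 1) x := by
  refine ⟨Dᶜ, hD.isOpen_compl, hx, fun z _ => contMDiffAt_const, fun z hz => ?_, ?_⟩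
  · exact ⟨fun h => absurd h hz, fun h => absurd h one_ne_zero⟩
  · rintro z ⟨h1, h2⟩
    exact absurd h1 h2

/-- Off the divisors, `w` is holomorphic. -/
theorem UDat.whol (hT : UDat (Cm (p + d)) f S U 𝒜 L) (h𝒜 : 𝒜.Finite)
    (hP : ∀ D ∈ 𝒜, IsClosed D) {a : ι} {x : X} {β : X → V} {w : X → Cub V} (hL : L a x β w)
    (hx : ∀ D ∈ 𝒜, x ∉ D) : ContMDiffAt 𝓘(ℂ, Cm (p + d)) 𝓘(ℂ, Cub V) ω w x := by
  obtain ⟨H, hH, hHe⟩ := hT.pole a x β w hL h𝒜.toFinset (fun _ _ => 1)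
    (fun D hD => h𝒜.mem_toFinset.2 hD)
    (fun D hD => isLocalEq_one (hP D (h𝒜.mem_toFinset.1 hD)) (hx D (h𝒜.mem_toFinset.1 hD)))
  refine hH.congr_of_eventuallyEq ?_
  filter_upwards [hHe, eventually_off h𝒜 hP hx] with z h2 h3
  have h4 := h2 h3
  rw [Finset.prod_const_one, one_pow, one_smul] at h4
  exact h4

/-- From `RankUD` of this file to `RankUD` of helper511. -/
theorem rankUD_to (hf : ContMDiff 𝓘(ℂ, Cm (p + d)) 𝓘(ℂ, Cm p) ω f)
    (hT : UDat (Cm (p + d)) f S U 𝒜 L)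
    (hsub : ∀ x, f x ∉ S → Function.Surjective (mfderiv 𝓘(ℂ, Cm (p + d)) 𝓘(ℂ, Cm p) f x))
    (hfull : ∀ a x β w, L a x β w → f x ∈ U a → ∀ l : V →L[ℂ] ℂ,
      (∀ᶠ z in 𝓝 x, f z = f x → l (β z) = l (β x)) → l = 0) {y : Y}
    (h : RankUD (Cm (p + d)) (d := d) f U 𝒜 L r y) :
    H511.UD.RankUD (Cm (p + d)) (d := d) f U 𝒜 L r y := by
  obtain ⟨a, hya, q, v₀, hq, hqf, hqA, hl⟩ := h
  have h1 : f (q v₀) = y := hqf.self_of_nhds
  refine ⟨a, hya, q, v₀, hq, hqf, hqA, fun β w hL => ?_⟩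
  have hβ := hT.bhol a (q v₀) β w hL
  have hβq : ContDiffAt ℂ ω (fun v => β (q v)) v₀ :=
    contMDiffAt_iff_contDiffAt.1 (ContMDiffAt.comp (g := β) (f := q) v₀ hβ hq)
  refine ⟨(hl β w hL).rankUDAt hβq, fun l hl' => ?_⟩
  obtain ⟨m₀, g, h0, -⟩ := hl β w hL
  have hya' : f (q v₀) ∈ U a := by rw [h1]; exact hya
  refine hfull a (q v₀) β w hL hya' l ?_
  have hqf' : ∀ᶠ v in 𝓝 v₀, f (q v) = f (q v₀) := by rw [h1]; exact hqf
  filter_upwards [slice_open hf (hsub _ ((hT.cover _).2 ⟨a, hya'⟩)) hβ hq rfl hqf' h0 hl']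
    with z hz hfz
  obtain ⟨v, hv1, hv2⟩ := hz hfz
  rw [← hv2]
  exact hv1

/-- From `RankUD` of helper511 to `RankUD` of this file. -/
theorem rankUD_of (hT : UDat (Cm (p + d)) f S U 𝒜 L) (h𝒜 : 𝒜.Finite)
    (hP : ∀ D ∈ 𝒜, IsClosed D) {y : Y} (h : H511.UD.RankUD (Cm (p + d)) (d := d) f U 𝒜 L r y) :
    RankUD (Cm (p + d)) (d := d) f U 𝒜 L r y := by
  obtain ⟨a, hya, q, v₀, hq, hqf, hqA, hl⟩ := h
  refine ⟨a, hya, q, v₀, hq, hqf, hqA, fun β w hL => ?_⟩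
  have hβq : ContDiffAt ℂ ω (fun v => β (q v)) v₀ :=
    contMDiffAt_iff_contDiffAt.1 (ContMDiffAt.comp (g := β) (f := q) v₀
      (hT.bhol a (q v₀) β w hL) hq)
  have hwq : ContDiffAt ℂ ω (fun v => w (q v)) v₀ :=
    contMDiffAt_iff_contDiffAt.1 (ContMDiffAt.comp (g := w) (f := q) v₀
      (hT.whol h𝒜 hP hL hqA) hq)
  exact RkUD.of_rankUDAt hβq (hwq.differentiableAt (by simp)) (hl β w hL).1

/-- There are points of rank at least `0`. -/
theorem rankUD_zero (hf : ContMDiff 𝓘(ℂ, Cm (p + d)) 𝓘(ℂ, Cm p) ω f) (hS : IsClosed S)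
    (hp : IsProperFibration (n := p + d) (p := p) f S) (hne : Sᶜ.Nonempty)
    (hT : UDat (Cm (p + d)) f S U 𝒜 L) (h𝒜 : 𝒜.Finite)
    (hP : ∀ D ∈ 𝒜, J.IsPrime (Cm (p + d)) D)
    (himm : ∀ a x β w, L a x β w → f x ∈ U a → ∀ ξ : Cm (p + d),
      mfderiv 𝓘(ℂ, Cm (p + d)) 𝓘(ℂ, Cm p) f x ξ = 0 →
      mfderiv 𝓘(ℂ, Cm (p + d)) 𝓘(ℂ, V) β x ξ = 0 → ξ = 0) :
    ∃ y ∉ S, RankUD (Cm (p + d)) (d := d) f U 𝒜 L 0 y := by
  obtain ⟨y₀, hy₀⟩ := hne
  obtain ⟨x₀, hx₀⟩ := (hp.connected y₀ hy₀).nonempty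
  have hd : Dense {x : X | ∀ D ∈ 𝒜, x ∉ D} :=
    (dense_compl_finite h𝒜 (fun D hD => (hP D hD).1) fun D hD => by
      rw [← interior_eq_empty_iff_dense_compl, eq_empty_iff_forall_notMem]
      intro z hz
      obtain ⟨g, hg⟩ := (hP D hD).2.1 z
      exact localEq_not_nhds hg (mem_interior_iff_mem_nhds.1 hz)).2
  have hO : IsOpen (f ⁻¹' Sᶜ) := hS.isOpen_compl.preimage hf.continuous
  have hx₀' : f x₀ = y₀ := hx₀
  obtain ⟨x, hxS, hxA⟩ := hd.inter_open_nonempty _ hO ⟨x₀, by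
    show f x₀ ∉ S
    rw [hx₀']; exact hy₀⟩
  have hxS' : f x ∉ S := hxS
  obtain ⟨a, ha⟩ := (hT.cover (f x)).1 hxS'
  obtain ⟨β, w, hL⟩ := hT.lift a x ha
  obtain ⟨c, hxc, hc⟩ := H152.K.exists_prodChart (d := d) hf (chart_mem_atlas (Cm p) (f x))
    (mem_chart_source _ _) (hp.submersive x hxS')
  refine ⟨f x, hxS', (rankUD_iff hT h𝒜 fun D hD => (hP D hD).1).2 ⟨x, ⟨hxA, a, β, w, ha, hL,
    fun v => c.symm ((c x).1, v), (c x).2, slice_hol hc hxc, c.left_inv hxc, slice_fib hc hxc, ?_⟩,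
    rfl⟩⟩
  set σ : Cm d → X := fun v => c.symm ((c x).1, v) with hσ
  have hσx : σ (c x).2 = x := c.left_inv hxc
  have hσh := slice_hol hc hxc
  have hβ : ContMDiffAt 𝓘(ℂ, Cm (p + d)) 𝓘(ℂ, V) ω β (σ (c x).2) := by
    rw [hσx]; exact hT.bhol a x β w hL
  have hinj : Function.Injective (fderiv ℂ (fun v => β (σ v)) (c x).2) := by
    rw [injective_iff_map_eq_zero]
    intro ξ hξ
    have h1 : mfderiv 𝓘(ℂ, Cm d) 𝓘(ℂ, V) (fun v => β (σ v)) (c x).2 =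
        (mfderiv 𝓘(ℂ, Cm (p + d)) 𝓘(ℂ, V) β (σ (c x).2)).comp
          (mfderiv 𝓘(ℂ, Cm d) 𝓘(ℂ, Cm (p + d)) σ (c x).2) :=
      mfderiv_comp (g := β) (f := σ) (c x).2 (hβ.mdifferentiableAt (by simp))
        (hσh.mdifferentiableAt (by simp))
    rw [mfderiv_eq_fderiv] at h1
    have h2 : mfderiv 𝓘(ℂ, Cm (p + d)) 𝓘(ℂ, V) β (σ (c x).2)
        (mfderiv 𝓘(ℂ, Cm d) 𝓘(ℂ, Cm (p + d)) σ (c x).2 ξ) = 0 := by
      have h3 := congrArg (fun A : Cm d →L[ℂ] V => A ξ) h1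
      exact h3.symm.trans hξ
    have h3 : mfderiv 𝓘(ℂ, Cm (p + d)) 𝓘(ℂ, Cm p) f (σ (c x).2)
        (mfderiv 𝓘(ℂ, Cm d) 𝓘(ℂ, Cm (p + d)) σ (c x).2 ξ) = 0 := by
      have h4 : mfderiv 𝓘(ℂ, Cm d) 𝓘(ℂ, Cm p) (fun v => f (σ v)) (c x).2 =
          (mfderiv 𝓘(ℂ, Cm (p + d)) 𝓘(ℂ, Cm p) f (σ (c x).2)).comp
            (mfderiv 𝓘(ℂ, Cm d) 𝓘(ℂ, Cm (p + d)) σ (c x).2) :=
        mfderiv_comp (g := f) (f := σ) (c x).2 ((hf _).mdifferentiableAt (by simp))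
          (hσh.mdifferentiableAt (by simp))
      have h5 : (fun v => f (σ v)) =ᶠ[𝓝 (c x).2] fun _ => f x := slice_fib hc hxc
      rw [h5.mfderiv_eq, mfderiv_const] at h4
      have h6 := congrArg (fun A : Cm d →L[ℂ] Cm p => A ξ) h4
      exact h6.symm
    have h4 := himm a (σ (c x).2) β w (by rw [hσx]; exact hL) (by rw [hσx]; exact ha) _ h3 h2
    -- `σ` is an immersion
    have h5 : mfderiv 𝓘(ℂ, Cm d) 𝓘(ℂ, Cm d) (fun v => (c (σ v)).2) (c x).2 ξ = 0 := by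
      have k1 : ContMDiffAt 𝓘(ℂ, Cm (p + d)) 𝓘(ℂ, Cm d) ω (fun z => (c z).2) (σ (c x).2) := by
        rw [hσx]
        have k2 : ContMDiffAt 𝓘(ℂ, Cm (p + d)) 𝓘(ℂ, Cm p × Cm d) ω c x :=
          (hc.hol x hxc).contMDiffAt (c.open_source.mem_nhds hxc)
        exact ContMDiffAt.comp (g := Prod.snd) (f := c) x
          (contDiffAt_snd.contMDiffAt) k2
      have k3 : mfderiv 𝓘(ℂ, Cm d) 𝓘(ℂ, Cm d) (fun v => (c (σ v)).2) (c x).2 =
          (mfderiv 𝓘(ℂ, Cm (p + d)) 𝓘(ℂ, Cm d) (fun z => (c z).2) (σ (c x).2)).comp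
            (mfderiv 𝓘(ℂ, Cm d) 𝓘(ℂ, Cm (p + d)) σ (c x).2) :=
        mfderiv_comp (g := fun z => (c z).2) (f := σ) (c x).2 (k1.mdifferentiableAt (by simp))
          (hσh.mdifferentiableAt (by simp))
      rw [k3]
      have k4 : ((mfderiv 𝓘(ℂ, Cm (p + d)) 𝓘(ℂ, Cm d) (fun z => (c z).2) (σ (c x).2)).comp
            (mfderiv 𝓘(ℂ, Cm d) 𝓘(ℂ, Cm (p + d)) σ (c x).2)) ξ =
          mfderiv 𝓘(ℂ, Cm (p + d)) 𝓘(ℂ, Cm d) (fun z => (c z).2) (σ (c x).2)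
            (mfderiv 𝓘(ℂ, Cm d) 𝓘(ℂ, Cm (p + d)) σ (c x).2 ξ) := rfl
      rw [k4, h4]
      exact map_zero _
    have h6 : (fun v => (c (σ v)).2) =ᶠ[𝓝 (c x).2] fun v => v := by
      filter_upwards [slice_mem hc hxc] with v hv
      show (c (c.symm ((c x).1, v))).2 = v
      rw [c.right_inv hv]
    rw [h6.mfderiv_eq, mfderiv_eq_fderiv] at h5
    have h7 : fderiv ℂ (fun v : Cm d => v) (c x).2 ξ = ξ := by rw [fderiv_fun_id]; rfl
    exact h7.symm.trans h5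
  obtain ⟨m₀, hm₀⟩ := exists_minor hinj
  exact ⟨m₀, Fin.elim0, hm₀, fun η => ⟨0, Subsingleton.elim _ _⟩⟩

/-- **D8 of T-UD, in the letters of `H511.UD`.** -/
theorem gen_rank_UD [T2Space X] [CompactSpace X] [T2Space Y]
    (hf : ContMDiff 𝓘(ℂ, Cm (p + d)) 𝓘(ℂ, Cm p) ω f) (hS : IsSmallSet (Cm p) S)
    (hpre : IsPreconnected Sᶜ) (hne : Sᶜ.Nonempty)
    (hp : IsProperFibration (n := p + d) (p := p) f S)
    (hT : H511.UD.IsUD (Cm (p + d)) (Cm p) d T f S Q U π 𝒜 L)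
    (himm : ∀ a x β w, L a x β w → f x ∈ U a → ∀ ξ : Cm (p + d),
      mfderiv 𝓘(ℂ, Cm (p + d)) 𝓘(ℂ, Cm p) f x ξ = 0 →
      mfderiv 𝓘(ℂ, Cm (p + d)) 𝓘(ℂ, V) β x ξ = 0 → ξ = 0)
    (hfull : ∀ a x β w, L a x β w → f x ∈ U a → ∀ l : V →L[ℂ] ℂ,
      (∀ᶠ z in 𝓝 x, f z = f x → l (β z) = l (β x)) → l = 0)
    (h𝒜 : 𝒜.Finite) (hP : ∀ D ∈ 𝒜, J.IsPrime (Cm (p + d)) D) :
    ∃ (r : ℕ) (S' : Set Y), r ≤ d ∧ S ⊆ S' ∧ IsSmallSet (Cm p) S' ∧
      (∀ y ∉ S', H511.UD.RankUD (Cm (p + d)) (d := d) f U 𝒜 L r y) ∧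
      ∀ y ∉ S, ¬ H511.UD.RankUD (Cm (p + d)) (d := d) f U 𝒜 L (r + 1) y := by
  have hU := uDat hT
  obtain ⟨r, S', h1, h2, h3, h4⟩ := gen_rank_ud hf hS hpre hp hU h𝒜 hP
    (rankUD_zero hf hS.1 hp hne hU h𝒜 hP himm)
  refine ⟨r, S', ?_, h1, h2, fun y hy => rankUD_to hf hU hp.submersive hfull (h3 y hy),
    fun y hy h => h4 y hy (rankUD_of hU h𝒜 (fun D hD => (hP D hD).1) h)⟩
  obtain ⟨hYc, hd⟩ := compactSpace_base hf hp hS
  obtain ⟨y, hy⟩ := (IsSmallSet.dense_compl h2).nonempty_iff.2 ⟨hne.some⟩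
  exact rankUD_le (h3 y hy) hU

end Geo

end Vale.Agent.P281.H364.UD
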