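import Vale.Agent.P281.H364.UD.Rank

/-!
# P281, project T-UD (helper364): block D8: the generic rank, geometric part
-/

open Set Filter Metric Vale.Agent.P281
open Vale.Agent.P281.H64 (Cm IsProperFibration)
open Vale.Agent.P281.H64.Gen (IsSmallSet)
open Vale.Agent.P281.H64.TD (Cub)
open Vale.Agent.P281.H713 (minor minor_congr minor_map minor_comp minor_joint minor_contDiffAt)
open Vale.Agent.P281.H969.K (LocAnalytic)
open Vale.Agent.P281.H364.TD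
open scoped Topology ContDiff Manifold

set_option linter.unusedSectionVars false

noncomputable section

namespace Vale.Agent.P281.H364.UD

section Defs
variable (E E' : Type) [NormedAddCommGroup E] [NormedSpace ℂ E]
  [NormedAddCommGroup E'] [NormedSpace ℂ E']
variable {X Y : Type} [TopologicalSpace X] [ChartedSpace E X]
  [TopologicalSpace Y] [ChartedSpace E' Y]
variable {V : Type} [NormedAddCommGroup V] [InnerProductSpace ℂ V] [FiniteDimensional ℂ V]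

/-- The data used for the generic rank. -/
structure UDat (f : X → Y) (S : Set Y) {ι : Type} (U : ι → Set Y) (𝒜 : Set (Set X))
    (L : ι → X → (X → V) → (X → Cub V) → Prop) : Prop where
  cover : ∀ y, y ∉ S ↔ ∃ a, y ∈ U a
  isOpen : ∀ a, IsOpen (U a)
  lift : ∀ a x, f x ∈ U a → ∃ β w, L a x β w
  bhol : ∀ a x β w, L a x β w → ContMDiffAt 𝓘(ℂ, E) 𝓘(ℂ, V) ω β x
  pole : ∀ a x β w, L a x β w → ∀ (F : Finset (Set X)) (e : Set X → X → ℂ), (∀ D ∈ 𝒜, D ∈ F) →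
    (∀ D ∈ F, J.IsLocalEq E D (e D) x) → ∃ H : X → Cub V,
      ContMDiffAt 𝓘(ℂ, E) 𝓘(ℂ, Cub V) ω H x ∧
      ∀ᶠ z in 𝓝 x, (∀ D ∈ 𝒜, z ∉ D) → (∏ D ∈ F, e D z) ^ 3 • w z = H z
  near : ∀ a x β w, L a x β w → ∀ᶠ z in 𝓝 x, L a z β w
  change : ∀ a b x, f x ∈ U a → f x ∈ U b → ∀ β w β' w', L a x β w → L b x β' w' →
    ∃ (G : V ≃L[ℂ] V) (c : V), ∀ᶠ z in 𝓝 x, f z = f x → β' z = G (β z) + c ∧
      ((∀ D ∈ 𝒜, z ∉ D) → w z = (w' z).compContinuousLinearMap fun _ => (G : V →L[ℂ] V))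

/-- The rank of the Gauss map and of `w` together on the fibre over `y` is at least `r`. -/
def RankUD {d : ℕ} (f : X → Y) {ι : Type} (U : ι → Set Y) (𝒜 : Set (Set X))
    (L : ι → X → (X → V) → (X → Cub V) → Prop) (r : ℕ) (y : Y) : Prop :=
  ∃ a, y ∈ U a ∧ ∃ (q : (Fin d → ℂ) → X) (v₀ : Fin d → ℂ),
    ContMDiffAt 𝓘(ℂ, Fin d → ℂ) 𝓘(ℂ, E) ω q v₀ ∧ (∀ᶠ v in 𝓝 v₀, f (q v) = y) ∧
    (∀ D ∈ 𝒜, q v₀ ∉ D) ∧ ∀ β w, L a (q v₀) β w → RkUD r (fun v => β (q v)) (fun v => w (q v)) v₀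

end Defs

section
variable {p d n : ℕ} {X Y : Type} [TopologicalSpace X] [ChartedSpace (Cm (p + d)) X]
  [TopologicalSpace Y] [ChartedSpace (Cm p) Y]
  {V : Type} [NormedAddCommGroup V] [InnerProductSpace ℂ V] [FiniteDimensional ℂ V]

variable (p d) in
/-- The points where the rank on the fibre is at least `r`. -/
def RSetU (f : X → Y) {ι : Type} (U : ι → Set Y) (𝒜 : Set (Set X))
    (L : ι → X → (X → V) → (X → Cub V) → Prop) (r : ℕ) : Set X :=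
  {x | (∀ D ∈ 𝒜, x ∉ D) ∧ ∃ a β w, f x ∈ U a ∧ L a x β w ∧ ∃ (q : Cm d → X) (v₀ : Cm d),
    ContMDiffAt 𝓘(ℂ, Cm d) 𝓘(ℂ, Cm (p + d)) ω q v₀ ∧ q v₀ = x ∧
    (∀ᶠ v in 𝓝 v₀, f (q v) = f x) ∧ RkUD r (fun v => β (q v)) (fun v => w (q v)) v₀}

variable {f : X → Y} {S : Set Y} {ι : Type} {U : ι → Set Y} {𝒜 : Set (Set X)}
  {L : ι → X → (X → V) → (X → Cub V) → Prop} {r : ℕ}

/-- The rank does not depend on the choice of `β`, `w`. -/
theorem rkUD_change (hT : UDat (Cm (p + d)) f S U 𝒜 L) {x : X}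
    (hxA : ∀ᶠ z in 𝓝 x, ∀ D ∈ 𝒜, z ∉ D) {a b : ι} (ha : f x ∈ U a) (hb : f x ∈ U b)
    {β β' : X → V} {w w' : X → Cub V} (hL : L a x β w) (hL' : L b x β' w') {q : Cm d → X}
    {v₀ : Cm d} (hq : ContMDiffAt 𝓘(ℂ, Cm d) 𝓘(ℂ, Cm (p + d)) ω q v₀) (hqx : q v₀ = x)
    (hqf : ∀ᶠ v in 𝓝 v₀, f (q v) = f x)
    (h : RkUD r (fun v => β (q v)) (fun v => w (q v)) v₀) :
    RkUD r (fun v => β' (q v)) (fun v => w' (q v)) v₀ := by
  obtain ⟨G, c, hG⟩ := hT.change a b x ha hb β w β' w' hL hL'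
  have hqc : Tendsto q (𝓝 v₀) (𝓝 x) := by
    have := hq.continuousAt.tendsto
    rwa [hqx] at this
  refine h.change G c ?_ ?_ ?_
  · have h1 : ContMDiffAt 𝓘(ℂ, Cm d) 𝓘(ℂ, V) ω (fun v => β (q v)) v₀ :=
      ContMDiffAt.comp (g := β) v₀ (by rw [hqx]; exact hT.bhol a x β w hL) hq
    filter_upwards [(contMDiffAt_iff_contDiffAt.1 h1).eventually (by simp)] with v hv
      using hv.differentiableAt (by simp)
  · filter_upwards [hqc.eventually hG, hqf] with v h2 h4 using (h2 h4).1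
  · filter_upwards [hqc.eventually hG, hqc.eventually hxA, hqf] with v h2 h3 h4
      using (h2 h4).2 h3

/-- `RankUD` in terms of `RSetU`. -/
theorem rankUD_iff (hT : UDat (Cm (p + d)) f S U 𝒜 L) (h𝒜 : 𝒜.Finite)
    (hP : ∀ D ∈ 𝒜, IsClosed D) {y : Y} :
    RankUD (Cm (p + d)) (d := d) f U 𝒜 L r y ↔ ∃ x ∈ RSetU p d f U 𝒜 L r, f x = y := by
  constructor
  · rintro ⟨a, hya, q, v₀, hq, hqf, hqA, hl⟩
    have h1 : f (q v₀) = y := hqf.self_of_nhds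
    obtain ⟨β, w, hL⟩ := hT.lift a (q v₀) (by rw [h1]; exact hya)
    refine ⟨q v₀, ⟨hqA, a, β, w, by rw [h1]; exact hya, hL, q, v₀, hq, rfl, ?_, hl β w hL⟩, h1⟩
    rw [h1]
    exact hqf
  · rintro ⟨x, ⟨hxA, a, β, w, hxa, hL, q, v₀, hq, hqx, hqf, hl⟩, rfl⟩
    refine ⟨a, hxa, q, v₀, hq, hqf, by rw [hqx]; exact hxA, fun β' w' hL' => ?_⟩
    rw [hqx] at hL'
    exact rkUD_change hT (eventually_off h𝒜 hP hxA) hxa hxa hL hL' hq hqx hqf hl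

variable [IsManifold 𝓘(ℂ, Cm (p + d)) ω X] [IsManifold 𝓘(ℂ, Cm p) ω Y]

theorem locAnalytic_rSetU (hf : ContMDiff 𝓘(ℂ, Cm (p + d)) 𝓘(ℂ, Cm p) ω f)
    (hT : UDat (Cm (p + d)) f S U 𝒜 L) (h𝒜 : 𝒜.Finite)
    (hP : ∀ D ∈ 𝒜, J.IsPrime (Cm (p + d)) D) {x₀ : X} (hx₀ : f x₀ ∉ S)
    (hs : Function.Surjective (mfderiv 𝓘(ℂ, Cm (p + d)) 𝓘(ℂ, Cm p) f x₀)) :
    LocAnalytic (p := p + d) (RSetU p d f U 𝒜 L r)ᶜ x₀ := by
  classical
  obtain ⟨a₀, ha₀⟩ := (hT.cover (f x₀)).1 hx₀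
  obtain ⟨β₀, w₀, hL₀⟩ := hT.lift a₀ x₀ ha₀
  have he : ∀ D : Set X, ∃ e : X → ℂ, D ∈ 𝒜 → J.IsLocalEq (Cm (p + d)) D e x₀ := by
    intro D
    by_cases hD : D ∈ 𝒜
    · obtain ⟨g, hg⟩ := (hP D hD).2.1 x₀
      exact ⟨g, fun _ => hg⟩
    · exact ⟨fun _ => 0, fun h => absurd h hD⟩
  choose e he using he
  obtain ⟨H, hH, hwH⟩ := hT.pole a₀ x₀ β₀ w₀ hL₀ h𝒜.toFinset e
    (fun D hD => h𝒜.mem_toFinset.2 hD) fun D hD => he D (h𝒜.mem_toFinset.1 hD)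
  set h : X → ℂ := fun z => (∏ D ∈ h𝒜.toFinset, e D z) ^ 3 with hh
  obtain ⟨c, hxc, hc⟩ := H152.K.exists_prodChart (d := d) hf (chart_mem_atlas (Cm p) (f x₀))
    (mem_chart_source _ _) hs
  have h1 : ∀ᶠ z in 𝓝 x₀, ∀ D ∈ 𝒜, J.HolAt (Cm (p + d)) (e D) z ∧ (z ∈ D ↔ e D z = 0) := by
    rw [Filter.eventually_all_finite h𝒜]
    intro D hD
    obtain ⟨W, hW, hxW, h2, h3, -⟩ := he D hD
    filter_upwards [hW.mem_nhds hxW] with z hz using ⟨h2 z hz, h3 z hz⟩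
  have h2 : ∀ᶠ z in 𝓝 x₀, ContMDiffAt 𝓘(ℂ, Cm (p + d)) 𝓘(ℂ, Cub V) ω H z :=
    (contMDiffAt_iff_contMDiffAt_nhds (by simp)).1 hH
  have h3 : ∀ᶠ z in 𝓝 x₀, f z ∈ U a₀ :=
    hf.continuous.continuousAt.eventually ((hT.isOpen a₀).mem_nhds ha₀)
  have h4 := hwH.eventually_nhds
  have h5 := hT.near a₀ x₀ β₀ w₀ hL₀
  set N : Set X := {z | (∀ D ∈ 𝒜, J.HolAt (Cm (p + d)) (e D) z ∧ (z ∈ D ↔ e D z = 0)) ∧
    ContMDiffAt 𝓘(ℂ, Cm (p + d)) 𝓘(ℂ, Cub V) ω H z ∧ f z ∈ U a₀ ∧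
    (∀ᶠ z' in 𝓝 z, (∀ D ∈ 𝒜, z' ∉ D) → h z' • w₀ z' = H z') ∧ L a₀ z β₀ w₀ ∧ z ∈ c.source}
    with hN
  have hNx : N ∈ 𝓝 x₀ := by
    filter_upwards [h1, h2, h3, h4, h5, c.open_source.mem_nhds hxc] with z k1 k2 k3 k4 k5 k6
      using ⟨k1, k2, k3, k4, k5, k6⟩
  have hhol : ∀ z ∈ N, J.HolAt (Cm (p + d)) h z := by
    rintro z ⟨k1, -⟩
    have k2 : ContMDiffAt 𝓘(ℂ, Cm (p + d)) 𝓘(ℂ, ℂ) ω (fun z => ∏ D ∈ h𝒜.toFinset, e D z) z :=
      contMDiffAt_finsetProd fun D hD => (k1 D (h𝒜.mem_toFinset.1 hD)).1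
    exact k2.pow 3
  have hzero : ∀ z ∈ N, h z ≠ 0 ↔ ∀ D ∈ 𝒜, z ∉ D := by
    rintro z ⟨k1, -⟩
    rw [hh]
    simp only [ne_eq, pow_eq_zero_iff (show (3 : ℕ) ≠ 0 by norm_num), Finset.prod_eq_zero_iff,
      not_exists, not_and, h𝒜.mem_toFinset]
    exact forall₂_congr fun D hD => not_congr (k1 D hD).2.symm
  have hw : ∀ z ∈ N, (∀ D ∈ 𝒜, z ∉ D) → ∀ᶠ z' in 𝓝 z, h z' ≠ 0 ∧ w₀ z' = (h z')⁻¹ • H z' := by
    rintro z hzN hz
    have k1 := eventually_off h𝒜 (fun D hD => (hP D hD).1) hz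
    have k2 : ∀ᶠ z' in 𝓝 z, h z' ≠ 0 :=
      (ContMDiffAt.continuousAt (hhol z hzN)).eventually_ne ((hzero z hzN).2 hz)
    filter_upwards [k1, k2, hzN.2.2.2.1] with z' k3 k4 k5
    refine ⟨k4, ?_⟩
    rw [← k5 k3, smul_smul, inv_mul_cancel₀ k4, one_smul]
  -- the slices
  have hslice : ∀ z ∈ N, Tendsto (fun v => c.symm ((c z).1, v)) (𝓝 (c z).2) (𝓝 z) := by
    intro z hz
    have k1 := (slice_hol hc hz.2.2.2.2.2).continuousAt.tendsto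
    have k2 : c.symm ((c z).1, (c z).2) = z := c.left_inv hz.2.2.2.2.2
    rwa [k2] at k1
  have hβs : ∀ z ∈ N, ContDiffAt ℂ ω (fun v => β₀ (c.symm ((c z).1, v))) (c z).2 := by
    intro z hz
    have k2 : c.symm ((c z).1, (c z).2) = z := c.left_inv hz.2.2.2.2.2
    have k3 := ContMDiffAt.comp (g := β₀) (f := fun v => c.symm ((c z).1, v)) (c z).2
      (by rw [k2]; exact hT.bhol a₀ z β₀ w₀ hz.2.2.2.2.1) (slice_hol hc hz.2.2.2.2.2)
    exact contMDiffAt_iff_contDiffAt.1 k3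
  have hws : ∀ z ∈ N, (∀ D ∈ 𝒜, z ∉ D) →
      DifferentiableAt ℂ (fun v => w₀ (c.symm ((c z).1, v))) (c z).2 := by
    intro z hz hzA
    have k2 : c.symm ((c z).1, (c z).2) = z := c.left_inv hz.2.2.2.2.2
    have k3 : DifferentiableAt ℂ (fun v => h (c.symm ((c z).1, v))) (c z).2 := by
      have k4 := ContMDiffAt.comp (g := h) (f := fun v => c.symm ((c z).1, v)) (c z).2
        (by rw [k2]; exact hhol z hz) (slice_hol hc hz.2.2.2.2.2)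
      exact (contMDiffAt_iff_contDiffAt.1 k4).differentiableAt (by simp)
    have k5 : DifferentiableAt ℂ (fun v => H (c.symm ((c z).1, v))) (c z).2 := by
      have k4 := ContMDiffAt.comp (g := H) (f := fun v => c.symm ((c z).1, v)) (c z).2
        (by rw [k2]; exact hz.2.1) (slice_hol hc hz.2.2.2.2.2)
      exact (contMDiffAt_iff_contDiffAt.1 k4).differentiableAt (by simp)
    have k6 : DifferentiableAt ℂ (fun v => (h (c.symm ((c z).1, v)))⁻¹ •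
        H (c.symm ((c z).1, v))) (c z).2 :=
      (DifferentiableAt.fun_inv k3 (by rw [k2]; exact (hzero z hz).2 hzA)).fun_smul k5
    refine k6.congr_of_eventuallyEq ?_
    filter_upwards [(hslice z hz).eventually (hw z hz hzA)] with v hv using hv.2
  -- the minors in the product chart
  set M : (Fin d → (V →L[ℂ] ℂ)) → X → ℂ := fun m x =>
    minor m (fun v => β₀ (c.symm ((c x).1, v))) (c x).2 with hM
  have hMhol : ∀ m, ∀ z ∈ N, J.HolAt (Cm (p + d)) (M m) z := by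
    intro m z hz
    have k1 : ContMDiffAt 𝓘(ℂ, Cm p × Cm d) 𝓘(ℂ, Cm (p + d)) ω c.symm (c z) :=
      (hc.symm_hol _ (c.map_source hz.2.2.2.2.2)).contMDiffAt
        (c.open_target.mem_nhds (c.map_source hz.2.2.2.2.2))
    have k2 : ContMDiffAt 𝓘(ℂ, Cm p × Cm d) 𝓘(ℂ, V) ω (fun q => β₀ (c.symm q)) (c z) :=
      ContMDiffAt.comp (g := β₀) (c z)
        (by rw [c.left_inv hz.2.2.2.2.2]; exact hT.bhol a₀ z β₀ w₀ hz.2.2.2.2.1) k1
    have k3 : ContDiffAt ℂ ω (fun q : Cm p × (Fin d → ℂ) =>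
        minor m (fun u => β₀ (c.symm (q.1, u))) q.2) (c z) :=
      minor_joint (μ := fun _ : Cm p => m) (B := fun q : Cm p × (Fin d → ℂ) => β₀ (c.symm q))
        contDiffAt_const (contMDiffAt_iff_contDiffAt.1 k2)
    have k4 : ContMDiffAt 𝓘(ℂ, Cm (p + d)) 𝓘(ℂ, Cm p × Cm d) ω c z :=
      (hc.hol z hz.2.2.2.2.2).contMDiffAt (c.open_source.mem_nhds hz.2.2.2.2.2)
    exact ContMDiffAt.comp (g := fun q : Cm p × (Fin d → ℂ) =>
        minor m (fun u => β₀ (c.symm (q.1, u))) q.2) (f := c) z k3.contMDiffAt k4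
  have hMs : ∀ m, ∀ z ∈ N, ∀ᶠ v in 𝓝 (c z).2, M m (c.symm ((c z).1, v)) =
      minor m (fun v => β₀ (c.symm ((c z).1, v))) v := by
    intro m z hz
    filter_upwards [slice_mem hc hz.2.2.2.2.2] with v hv
    rw [hM]
    simp only
    rw [c.right_inv hv]
  have hMz : ∀ m, ∀ z, M m z = minor m (fun v => β₀ (c.symm ((c z).1, v))) (c z).2 :=
    fun m z => rfl
  -- the tuples
  set A : (Fin d → (V →L[ℂ] ℂ)) × (Fin r → ((Fin d → (V →L[ℂ] ℂ)) ⊕ (Cub V →L[ℂ] ℂ))) →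
      Fin (r + 1) → X → ℂ := fun j => Fin.cons (fun z => h z * M j.1 z) fun k z =>
        Sum.elim (fun m => h z * M m z) (fun l => M j.1 z * l (H z)) (j.2 k) with hA
  have hA0 : ∀ j z, A j 0 z = h z * M j.1 z := fun _ _ => rfl
  have hAk : ∀ j (k : Fin r) z, A j k.succ z =
      Sum.elim (fun m => h z * M m z) (fun l => M j.1 z * l (H z)) (j.2 k) := fun _ _ _ => rfl
  have hAs : ∀ j k, ∀ z ∈ N, (∀ D ∈ 𝒜, z ∉ D) → M j.1 z ≠ 0 →
      (fun v => A j k.succ (c.symm ((c z).1, v)) / A j 0 (c.symm ((c z).1, v))) =ᶠ[𝓝 (c z).2]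
        gf j.1 (j.2 k) (fun v => β₀ (c.symm ((c z).1, v))) (fun v => w₀ (c.symm ((c z).1, v))) := by
    intro j k z hz hzA hMz0
    have k1 : ∀ᶠ v in 𝓝 (c z).2, M j.1 (c.symm ((c z).1, v)) ≠ 0 :=
      (hslice z hz).eventually ((ContMDiffAt.continuousAt (hMhol j.1 z hz)).eventually_ne hMz0)
    have k0 : ∀ m, ∀ᶠ v in 𝓝 (c z).2, M m (c.symm ((c z).1, v)) =
      minor m (fun v => β₀ (c.symm ((c z).1, v))) v := fun m => hMs m z hz
    rcases hjk : j.2 k with m | l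
    · filter_upwards [k1, (hslice z hz).eventually (hw z hz hzA), k0 j.1, k0 m] with v k2 k3 k4 k5
      rw [hA0, hAk, hjk, Sum.elim_inl, k4, k5, mul_div_mul_left _ _ k3.1]
      rfl
    · filter_upwards [k1, (hslice z hz).eventually (hw z hz hzA)] with v k2 k3
      have k4 : gf j.1 (Sum.inr l) (fun v => β₀ (c.symm ((c z).1, v)))
          (fun v => w₀ (c.symm ((c z).1, v))) v = l (w₀ (c.symm ((c z).1, v))) := rfl
      rw [k4, hA0, hAk, hjk, Sum.elim_inr, k3.2, map_smul, smul_eq_mul,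
        mul_comm (h (c.symm ((c z).1, v))), mul_div_mul_left _ _ k2, div_eq_inv_mul]
  have hAhol : ∀ z ∈ N, ∀ j k, J.HolAt (Cm (p + d)) (A j k) z := by
    intro z hz j k
    refine Fin.cases ?_ (fun k => ?_) k
    · exact ContMDiffAt.mul (hhol z hz) (hMhol _ z hz)
    · show J.HolAt (Cm (p + d)) (fun z => Sum.elim (fun m => h z * M m z)
        (fun l => M j.1 z * l (H z)) (j.2 k)) z
      rcases j.2 k with m | l
      · exact ContMDiffAt.mul (hhol z hz) (hMhol _ z hz)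
      · exact ContMDiffAt.mul (hMhol _ z hz)
          (ContMDiffAt.comp (g := l) (f := H) z l.contDiff.contMDiff.contMDiffAt hz.2.1)
  refine locAnalytic_sub hf hs hNx A hAhol ?_
  intro x hx
  constructor
  · rintro ⟨hxA, b, β', w', hxb, hL', q, v₀, hq, hqx, hqf, hl⟩
    have k1 := rkUD_change hT (eventually_off h𝒜 (fun D hD => (hP D hD).1) hxA) hxb
      hx.2.2.1 hL' hx.2.2.2.2.1 hq hqx hqf hl
    have hxs := hx.2.2.2.2.2
    have hqc : Tendsto q (𝓝 v₀) (𝓝 x) := by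
      have := hq.continuousAt.tendsto
      rwa [hqx] at this
    have hcq : ContMDiffAt 𝓘(ℂ, Cm d) 𝓘(ℂ, Cm p × Cm d) ω (fun v => c (q v)) v₀ := by
      have k2 : ContMDiffAt 𝓘(ℂ, Cm (p + d)) 𝓘(ℂ, Cm p × Cm d) ω c (q v₀) := by
        rw [hqx]
        exact (hc.hol x hxs).contMDiffAt (c.open_source.mem_nhds hxs)
      exact ContMDiffAt.comp (g := c) (f := q) v₀ k2 hq
    have hθ : ContDiffAt ℂ ω (fun v => (c (q v)).2) v₀ :=
      contDiffAt_snd.comp v₀ (contMDiffAt_iff_contDiffAt.1 hcq)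
    have hθ0 : (c (q v₀)).2 = (c x).2 := by rw [hqx]
    have hqe : ∀ᶠ v in 𝓝 v₀, q v = c.symm ((c x).1, (c (q v)).2) := by
      filter_upwards [hqc.eventually (c.open_source.mem_nhds hxs), hqf] with v k4 k5
      have k6 : c (q v) = ((c x).1, (c (q v)).2) := by
        refine Prod.ext ?_ rfl
        rw [(hc.fst _ k4).2, (hc.fst _ hxs).2, k5]
      rw [← k6, c.left_inv k4]
    have k2 : RkUD r (fun v => β₀ (c.symm ((c x).1, (c (q v)).2)))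
        (fun v => w₀ (c.symm ((c x).1, (c (q v)).2))) v₀ := by
      refine k1.congr ?_ ?_
      · filter_upwards [hqe] with v hv
        rw [← hv]
      · filter_upwards [hqe] with v hv
        rw [← hv]
    have k3 : RkUD r (fun v => β₀ (c.symm ((c x).1, v))) (fun v => w₀ (c.symm ((c x).1, v)))
        (c x).2 := by
      rw [← hθ0]
      exact RkUD.of_comp (θ := fun v => (c (q v)).2)
        (h := fun v => β₀ (c.symm ((c x).1, v))) (W := fun v => w₀ (c.symm ((c x).1, v))) hθ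
        (by rw [hθ0]; exact hβs x hx) (by rw [hθ0]; exact hws x hx hxA) k2
    obtain ⟨m₀, g, h0, hsj⟩ := k3
    refine ⟨(m₀, g), (subAt_iff hc hxs (hAhol x hx (m₀, g))).2 ⟨?_, fun η => ?_⟩⟩
    · exact mul_ne_zero ((hzero x hx).2 hxA) h0
    · obtain ⟨ξ, hξ⟩ := hsj η
      refine ⟨ξ, ?_⟩
      rw [← hξ]
      funext k
      show fderiv ℂ _ _ ξ = fderiv ℂ _ _ ξ
      rw [(hAs (m₀, g) k x hx hxA h0).fderiv_eq]
  · rintro ⟨j, hj⟩
    have hxs := hx.2.2.2.2.2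
    obtain ⟨h0, hsj⟩ := (subAt_iff hc hxs (hAhol x hx j)).1 hj
    have h0' : h x * M j.1 x ≠ 0 := h0
    have hxA := (hzero x hx).1 (left_ne_zero_of_mul h0')
    have hM0 : M j.1 x ≠ 0 := right_ne_zero_of_mul h0'
    refine ⟨hxA, a₀, β₀, w₀, hx.2.2.1, hx.2.2.2.2.1, fun v => c.symm ((c x).1, v), (c x).2,
      slice_hol hc hxs, c.left_inv hxs, slice_fib hc hxs, j.1, j.2, hM0, fun η => ?_⟩
    obtain ⟨ξ, hξ⟩ := hsj η
    refine ⟨ξ, ?_⟩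
    rw [← hξ]
    funext k
    show fderiv ℂ _ _ ξ = fderiv ℂ _ _ ξ
    rw [(hAs j k x hx hxA hM0).fderiv_eq]

/-- The rank is at most `d`. -/
theorem rankUD_le {y : Y} (h : RankUD (Cm (p + d)) (d := d) f U 𝒜 L r y)
    (hT : UDat (Cm (p + d)) f S U 𝒜 L) : r ≤ d := by
  obtain ⟨a, hya, q, v₀, hq, hqf, hqA, hl⟩ := h
  have h1 : f (q v₀) = y := hqf.self_of_nhds
  obtain ⟨β, w, hL⟩ := hT.lift a (q v₀) (by rw [h1]; exact hya)
  obtain ⟨m₀, g, h0, hs⟩ := hl β w hL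
  have h2 := LinearMap.finrank_le_finrank_of_surjective
    (f := (ContinuousLinearMap.pi fun k : Fin r =>
      fderiv ℂ (gf m₀ (g k) (fun v => β (q v)) fun v => w (q v)) v₀ :
        Cm d →L[ℂ] (Fin r → ℂ)).toLinearMap) hs
  simpa using h2

/-- **D8 of T-UD** -/
theorem gen_rank_ud [T2Space X] [CompactSpace X] [T2Space Y]
    (hf : ContMDiff 𝓘(ℂ, Cm (p + d)) 𝓘(ℂ, Cm p) ω f) (hS : IsSmallSet (Cm p) S)
    (hpre : IsPreconnected Sᶜ) (hp : IsProperFibration (n := p + d) (p := p) f S)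
    (hT : UDat (Cm (p + d)) f S U 𝒜 L) (h𝒜 : 𝒜.Finite)
    (hP : ∀ D ∈ 𝒜, J.IsPrime (Cm (p + d)) D)
    (h0 : ∃ y ∉ S, RankUD (Cm (p + d)) (d := d) f U 𝒜 L 0 y) :
    ∃ (r : ℕ) (S' : Set Y), S ⊆ S' ∧ IsSmallSet (Cm p) S' ∧
      (∀ y ∉ S', RankUD (Cm (p + d)) (d := d) f U 𝒜 L r y) ∧
      ∀ y ∉ S, ¬ RankUD (Cm (p + d)) (d := d) f U 𝒜 L (r + 1) y := by
  classical
  obtain ⟨hYc, -⟩ := compactSpace_base hf hp hS
  have hYs : SecondCountableTopology Y := ChartedSpace.secondCountable_of_sigmaCompact (Cm p) Y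
  have hbd : ∀ r, (∃ y ∉ S, RankUD (Cm (p + d)) (d := d) f U 𝒜 L r y) → r ≤ d := by
    rintro r ⟨y, -, h⟩
    exact rankUD_le h hT
  set r := Nat.findGreatest (fun r => ∃ y ∉ S, RankUD (Cm (p + d)) (d := d) f U 𝒜 L r y) d
    with hr
  have h1 : ∃ y ∉ S, RankUD (Cm (p + d)) (d := d) f U 𝒜 L r y :=
    Nat.findGreatest_spec (P := fun r => ∃ y ∉ S, RankUD (Cm (p + d)) (d := d) f U 𝒜 L r y)
      (hbd 0 h0) h0
  have h2 : ∀ y ∉ S, ¬ RankUD (Cm (p + d)) (d := d) f U 𝒜 L (r + 1) y := by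
    intro y hy h
    have h3 : r + 1 ≤ r := Nat.le_findGreatest (hbd _ ⟨y, hy, h⟩) ⟨y, hy, h⟩
    omega
  refine ⟨r, S ∪ {y | ∀ x, f x = y → x ∉ RSetU p d f U 𝒜 L r}, subset_union_left,
    small_over hf hp hS hpre (fun x hx => locAnalytic_rSetU hf hT h𝒜 hP hx
      (hp.submersive x hx)) ?_, fun y hy => ?_, h2⟩
  · obtain ⟨y, hy, h⟩ := h1
    obtain ⟨x, hx, hxy⟩ := (rankUD_iff hT h𝒜 fun D hD => (hP D hD).1).1 h
    exact ⟨x, hx, by rw [hxy]; exact hy⟩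
  · rw [mem_union, not_or] at hy
    have h3 := hy.2
    rw [mem_ofPred_eq] at h3
    push Not at h3
    obtain ⟨x, hx, hxR⟩ := h3
    exact (rankUD_iff hT h𝒜 fun D hD => (hP D hD).1).2 ⟨x, hxR, hx⟩

end

end Vale.Agent.P281.H364.UD
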