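import Vale.Agent.P281.H364.TD.D8
import Vale.Agent.P281.H713.GPl

/-!
# P281, project T-UD (helper364): block D8: the generic rank of the Gauss maps and of the third
logarithmic derivatives together
-/

open Set Filter Metric Vale.Agent.P281
open Vale.Agent.P281.H64 (Cm IsProperFibration)
open Vale.Agent.P281.H64.Gen (IsSmallSet)
open Vale.Agent.P281.H64.TD (Cub)
open Vale.Agent.P281.H713 (minor minor_congr minor_map minor_comp minor_joint minor_contDiffAt)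
open Vale.Agent.P281.H969.K (LocAnalytic)
open Vale.Agent.P281.H364.TD
open scoped Topology ContDiff Manifold

set_option linter.unusedSectionVars false

noncomputable section

namespace Vale.Agent.P281.H364.UD

section Rk
variable {d r : ℕ} {V : Type} [NormedAddCommGroup V] [InnerProductSpace ℂ V]
  [FiniteDimensional ℂ V]

/-- The functions whose rank is considered: quotients of minors of `h`, components of `W`. -/
def gf (m₀ : Fin d → (V →L[ℂ] ℂ)) (g : (Fin d → (V →L[ℂ] ℂ)) ⊕ (Cub V →L[ℂ] ℂ))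
    (h : (Fin d → ℂ) → V) (W : (Fin d → ℂ) → Cub V) (v : Fin d → ℂ) : ℂ :=
  Sum.elim (fun m => minor m h v / minor m₀ h v) (fun l => l (W v)) g

/-- The quotients of the minors of `h` and the components of `W` have rank at least `r` at `v₀`. -/
def RkUD (r : ℕ) (h : (Fin d → ℂ) → V) (W : (Fin d → ℂ) → Cub V) (v₀ : Fin d → ℂ) : Prop :=
  ∃ (m₀ : Fin d → (V →L[ℂ] ℂ)) (g : Fin r → ((Fin d → (V →L[ℂ] ℂ)) ⊕ (Cub V →L[ℂ] ℂ))),
    minor m₀ h v₀ ≠ 0 ∧ Function.Surjective fun (ξ : Fin d → ℂ) (k : Fin r) =>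
      fderiv ℂ (gf m₀ (g k) h W) v₀ ξ

theorem RkUD.congr {h h' : (Fin d → ℂ) → V} {W W' : (Fin d → ℂ) → Cub V} {v₀ : Fin d → ℂ}
    (h1 : h =ᶠ[𝓝 v₀] h') (h2 : W =ᶠ[𝓝 v₀] W') (H : RkUD r h W v₀) : RkUD r h' W' v₀ := by
  obtain ⟨m₀, g, h0, hs⟩ := H
  refine ⟨m₀, g, by rwa [← minor_congr m₀ h1], fun η => ?_⟩
  obtain ⟨ξ, hξ⟩ := hs η
  refine ⟨ξ, ?_⟩
  rw [← hξ]
  funext k
  have h3 : gf m₀ (g k) h' W' =ᶠ[𝓝 v₀] gf m₀ (g k) h W := by
    filter_upwards [h1.eventually_nhds, h2] with v h4 h5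
    have h4' : h =ᶠ[𝓝 v] h' := h4
    unfold gf
    rw [h5]
    rcases g k with m | l
    · simp only [Sum.elim_inl]
      rw [minor_congr m h4', minor_congr m₀ h4']
    · rfl
  show fderiv ℂ _ v₀ ξ = fderiv ℂ _ v₀ ξ
  rw [h3.fderiv_eq]

/-- Affine changes of `h`. -/
theorem RkUD.change {h h' : (Fin d → ℂ) → V} {W W' : (Fin d → ℂ) → Cub V} {v₀ : Fin d → ℂ}
    (G : V ≃L[ℂ] V) (c : V) (hh : ∀ᶠ v in 𝓝 v₀, DifferentiableAt ℂ h v)
    (h1 : ∀ᶠ v in 𝓝 v₀, h' v = G (h v) + c)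
    (h2 : ∀ᶠ v in 𝓝 v₀, W v = (W' v).compContinuousLinearMap fun _ => (G : V →L[ℂ] V))
    (H : RkUD r h W v₀) : RkUD r h' W' v₀ := by
  obtain ⟨m₀, g, h0, hs⟩ := H
  have key : ∀ (m : Fin d → (V →L[ℂ] ℂ)) (v : Fin d → ℂ), (∀ᶠ v in 𝓝 v, h' v = G (h v) + c) →
      DifferentiableAt ℂ h v → minor (fun i => (m i).comp (G.symm : V →L[ℂ] V)) h' v =
        minor m h v := by
    intro m v h3 h4
    have h5 : h' =ᶠ[𝓝 v] fun u => (G : V →L[ℂ] V) (h u) + c := h3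
    rw [minor_congr _ h5, minor_map _ h4]
    congr 1
    funext i
    ext x
    simp
  refine ⟨fun i => (m₀ i).comp (G.symm : V →L[ℂ] V), fun k => Sum.map
    (fun m i => (m i).comp (G.symm : V →L[ℂ] V)) (fun l => l.comp
      (ContinuousMultilinearMap.compContinuousLinearMapL fun _ => (G : V →L[ℂ] V))) (g k), ?_,
    fun η => ?_⟩
  · rw [key m₀ v₀ h1 hh.self_of_nhds]
    exact h0
  · obtain ⟨ξ, hξ⟩ := hs η
    refine ⟨ξ, ?_⟩
    rw [← hξ]
    funext k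
    have h3 : gf (fun i => (m₀ i).comp (G.symm : V →L[ℂ] V)) (Sum.map
        (fun m i => (m i).comp (G.symm : V →L[ℂ] V)) (fun l => l.comp
        (ContinuousMultilinearMap.compContinuousLinearMapL fun _ => (G : V →L[ℂ] V))) (g k))
          h' W' =ᶠ[𝓝 v₀] gf m₀ (g k) h W := by
      filter_upwards [h1.eventually_nhds, hh, h2] with v h4 h5 h6
      unfold gf
      rcases g k with m | l
      · simp only [Sum.map_inl, Sum.elim_inl]
        rw [key m v h4 h5, key m₀ v h4 h5]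
      · simp only [Sum.map_inr, Sum.elim_inr]
        rw [h6]
        rfl
    show fderiv ℂ _ v₀ ξ = fderiv ℂ _ v₀ ξ
    rw [h3.fderiv_eq]

theorem gf_differentiableAt {m₀ : Fin d → (V →L[ℂ] ℂ)}
    {g : (Fin d → (V →L[ℂ] ℂ)) ⊕ (Cub V →L[ℂ] ℂ)} {h : (Fin d → ℂ) → V}
    {W : (Fin d → ℂ) → Cub V} {v₀ : Fin d → ℂ} (hh : ContDiffAt ℂ ω h v₀)
    (hW : DifferentiableAt ℂ W v₀) (h0 : minor m₀ h v₀ ≠ 0) :
    DifferentiableAt ℂ (gf m₀ g h W) v₀ := by
  rcases g with m | l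
  · have h1 : gf m₀ (Sum.inl m) h W = fun v => minor m h v / minor m₀ h v := rfl
    rw [h1]
    simp only [div_eq_mul_inv]
    exact ((minor_contDiffAt m hh).differentiableAt (by simp)).mul
      (DifferentiableAt.fun_inv ((minor_contDiffAt m₀ hh).differentiableAt (by simp)) h0)
  · exact l.differentiableAt.comp v₀ hW

/-- Change of variables. -/
theorem RkUD.of_comp {h : (Fin d → ℂ) → V} {W : (Fin d → ℂ) → Cub V}
    {θ : (Fin d → ℂ) → (Fin d → ℂ)} {v₀ : Fin d → ℂ} (hθ : ContDiffAt ℂ ω θ v₀)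
    (hh : ContDiffAt ℂ ω h (θ v₀)) (hW : DifferentiableAt ℂ W (θ v₀))
    (H : RkUD r (fun v => h (θ v)) (fun v => W (θ v)) v₀) : RkUD r h W (θ v₀) := by
  obtain ⟨m₀, g, h0, hs⟩ := H
  have h1 : ∀ᶠ v in 𝓝 v₀, DifferentiableAt ℂ h (θ v) := by
    have h2 : ∀ᶠ u in 𝓝 (θ v₀), ContDiffAt ℂ ω h u := hh.eventually (by simp)
    filter_upwards [hθ.continuousAt.eventually h2] with v hv using hv.differentiableAt (by simp)
  have h2 : ∀ᶠ v in 𝓝 v₀, DifferentiableAt ℂ θ v := by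
    filter_upwards [hθ.eventually (by simp)] with v hv using hv.differentiableAt (by simp)
  have h3 : ∀ (m : Fin d → (V →L[ℂ] ℂ)), ∀ᶠ v in 𝓝 v₀, minor m (fun v => h (θ v)) v =
      (fderiv ℂ θ v).det * minor m h (θ v) := by
    intro m
    filter_upwards [h1, h2] with v h4 h5 using minor_comp m h4 h5
  have h4 := (h3 m₀).self_of_nhds
  have h5 : (fderiv ℂ θ v₀).det ≠ 0 := fun h => h0 (by rw [h4, h, zero_mul])
  have h6 : minor m₀ h (θ v₀) ≠ 0 := fun h => h0 (by rw [h4, h, mul_zero])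
  have h7 : ∀ᶠ v in 𝓝 v₀, minor m₀ (fun v => h (θ v)) v ≠ 0 := by
    have h8 : ContDiffAt ℂ ω (fun v => h (θ v)) v₀ := hh.comp v₀ hθ
    exact (minor_contDiffAt m₀ h8).continuousAt.eventually_ne h0
  refine ⟨m₀, g, h6, fun η => ?_⟩
  obtain ⟨ξ, hξ⟩ := hs η
  refine ⟨fderiv ℂ θ v₀ ξ, ?_⟩
  rw [← hξ]
  funext k
  have h8 : gf m₀ (g k) (fun v => h (θ v)) (fun v => W (θ v)) =ᶠ[𝓝 v₀]
      gf m₀ (g k) h W ∘ θ := by
    unfold gf
    rcases g k with m | l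
    · filter_upwards [h3 m, h3 m₀, h7] with v h9 h10 h11
      simp only [Sum.elim_inl, Function.comp_apply]
      rw [h9, h10]
      rw [h10] at h11
      rw [mul_div_mul_left _ _ (left_ne_zero_of_mul h11)]
    · exact Eventually.of_forall fun v => rfl
  show fderiv ℂ _ (θ v₀) _ = fderiv ℂ _ v₀ ξ
  rw [h8.fderiv_eq, fderiv_comp (x := v₀) (gf_differentiableAt hh hW h6)
    (hθ.differentiableAt (by simp))]
  rfl

end Rk

end Vale.Agent.P281.H364.UD
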